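import Crest.Agent.R316.Alg.Basis

/-!
# R316 / Real / Implicit : calculus of polynomial families
-/

set_option autoImplicit false

namespace Crest.Agent.R316.Rl

open MvPolynomial Topology

/-- derivative of the evaluation of a polynomial -/
theorem hasFDerivAt_eval {n : ℕ} (P : MvPolynomial (Fin n) ℝ) (x : Fin n → ℝ) :
    HasFDerivAt (fun x => eval x P)
      (∑ j, eval x (pderiv j P) • (ContinuousLinearMap.proj j : (Fin n → ℝ) →L[ℝ] ℝ)) x := by
  induction P using MvPolynomial.induction_on with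
  | C a => simpa using hasFDerivAt_const a x
  | add p q hp hq =>
    have h := hp.add hq
    simp only [map_add, add_smul, Finset.sum_add_distrib]
    exact h
  | mul_X p i hp =>
    have h := hp.mul (hasFDerivAt_apply i x)
    refine (h.congr_fderiv ?_).congr_of_eventuallyEq (Filter.Eventually.of_forall fun y => ?_)
    · ext v
      simp only [Derivation.leibniz, pderiv_X, smul_eq_mul, map_add, map_mul, eval_X]
      simp only [add_apply, smul_apply,
        sum_apply, ContinuousLinearMap.proj_apply, smul_eq_mul, add_mul,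
        Finset.sum_add_distrib]
      congr 1
      · rw [Finset.sum_eq_single i]
        · simp
        · intro j _ hj
          simp [Pi.single_apply, hj]
        · simp
      · rw [Finset.mul_sum]
        refine Finset.sum_congr rfl fun j _ => by ring
    · simp

theorem contDiff_aeval_int {k : ℕ} (a : MvPolynomial (Fin k) ℤ) {N : WithTop ℕ∞} :
    ContDiff ℝ N (fun p : Fin k → ℝ => aeval p a) := by
  induction a using MvPolynomial.induction_on with
  | C a => simpa using contDiff_const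
  | add p q hp hq => simpa using hp.add hq
  | mul_X p i hp =>
    simp only [map_mul, aeval_X]
    exact hp.mul (contDiff_apply ℝ ℝ i)

theorem contDiff_eval_map {k n : ℕ} (G : MvPolynomial (Fin n) (MvPolynomial (Fin k) ℤ))
    {N : WithTop ℕ∞} :
    ContDiff ℝ N (fun q : (Fin k → ℝ) × (Fin n → ℝ) =>
      eval q.2 (map (aeval q.1 : MvPolynomial (Fin k) ℤ →ₐ[ℤ] ℝ).toRingHom G)) := by
  induction G using MvPolynomial.induction_on with
  | C a =>
    simp only [map_C, eval_C]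
    exact (contDiff_aeval_int a).comp contDiff_fst
  | add p q hp hq => simpa using hp.add hq
  | mul_X p i hp =>
    simp only [map_mul, map_X, eval_X]
    exact hp.mul ((contDiff_apply ℝ ℝ i).comp contDiff_snd)

/-- **persistence of non-degenerate solutions** -/
theorem msol_persist {k n m : ℕ} (G : Fin n → MvPolynomial (Fin n) (MvPolynomial (Fin k) ℤ))
    (p₀ : Fin k → ℝ) (x₀ : Fin n → ℝ)
    (hsol : msol m (fun i => map (aeval p₀ : MvPolynomial (Fin k) ℤ →ₐ[ℤ] ℝ).toRingHom (G i)) x₀)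
    (hjac : eval x₀ (mjac m
      (fun i => map (aeval p₀ : MvPolynomial (Fin k) ℤ →ₐ[ℤ] ℝ).toRingHom (G i))) ≠ 0)
    {U : Set ((Fin k → ℝ) × (Fin n → ℝ))} (hU : U ∈ 𝓝 (p₀, x₀)) :
    ∀ᶠ p in 𝓝 p₀, ∃ x, (p, x) ∈ U ∧
      msol m (fun i => map (aeval p : MvPolynomial (Fin k) ℤ →ₐ[ℤ] ℝ).toRingHom (G i)) x := by
  -- the joint map
  set Ev : (Fin k → ℝ) → Fin n → MvPolynomial (Fin n) ℝ :=
    fun p i => map (aeval p : MvPolynomial (Fin k) ℤ →ₐ[ℤ] ℝ).toRingHom (G i) with hEv
  set Φ : (Fin k → ℝ) × (Fin n → ℝ) → (Fin k → ℝ) × (Fin n → ℝ) :=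
    fun q => (q.1, fun i => q.2 i ^ m - eval q.2 (Ev q.1 i)) with hΦ
  have hsm : ContDiff ℝ 1 Φ := by
    refine contDiff_fst.prodMk (contDiff_pi.mpr fun i => ?_)
    exact (((contDiff_apply ℝ ℝ i).comp contDiff_snd).pow m).sub (contDiff_eval_map (G i))
  have hstrict : HasStrictFDerivAt Φ (fderiv ℝ Φ (p₀, x₀)) (p₀, x₀) :=
    hsm.contDiffAt.hasStrictFDerivAt one_ne_zero
  set L := fderiv ℝ Φ (p₀, x₀) with hL
  -- derivative in the `x` direction
  set J : Matrix (Fin n) (Fin n) ℝ := Matrix.of fun i j =>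
    eval x₀ (pderiv j (X i ^ m - Ev p₀ i)) with hJ
  have hJdet : J.det ≠ 0 := by
    have : J.det = eval x₀ (mjac m (Ev p₀)) := by
      rw [mjac, RingHom.map_det]
      congr 1
    rw [this]; exact hjac
  have hx : HasFDerivAt (fun x => Φ (p₀, x)) (L.comp (ContinuousLinearMap.inr ℝ _ _)) x₀ :=
    hstrict.hasFDerivAt.comp x₀ (hasFDerivAt_prodMk_right p₀ x₀)
  have hx2 : HasFDerivAt (fun x : Fin n → ℝ => (fun i => x i ^ m - eval x (Ev p₀ i)))
      (ContinuousLinearMap.pi fun i => ∑ j, eval x₀ (pderiv j (X i ^ m - Ev p₀ i)) •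
        (ContinuousLinearMap.proj j : (Fin n → ℝ) →L[ℝ] ℝ)) x₀ := by
    rw [hasFDerivAt_pi]
    intro i
    have := hasFDerivAt_eval (X i ^ m - Ev p₀ i) x₀
    simpa using this
  have hLin : ∀ v : Fin n → ℝ, L (0, v) = (0, J.mulVec v) := by
    intro v
    have h1 : HasFDerivAt (fun x => (Φ (p₀, x)).2)
        ((ContinuousLinearMap.snd ℝ _ _).comp (L.comp (ContinuousLinearMap.inr ℝ _ _))) x₀ :=
      (hasFDerivAt_snd (𝕜 := ℝ)).comp x₀ hx
    have h2 := h1.unique hx2
    have h3 : HasFDerivAt (fun x => (Φ (p₀, x)).1)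
        ((ContinuousLinearMap.fst ℝ _ _).comp (L.comp (ContinuousLinearMap.inr ℝ _ _))) x₀ :=
      (hasFDerivAt_fst (𝕜 := ℝ)).comp x₀ hx
    have h4 := h3.unique (hasFDerivAt_const p₀ x₀)
    have h5 := DFunLike.congr_fun h2 v
    have h6 := DFunLike.congr_fun h4 v
    simp only [ContinuousLinearMap.comp_apply, ContinuousLinearMap.inr_apply] at h5 h6
    refine Prod.ext h6 ?_
    refine h5.trans ?_
    funext i
    simp [Matrix.mulVec, dotProduct, hJ]
  have hfst : ∀ w, (L w).1 = w.1 := by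
    intro w
    have h3 : HasFDerivAt (fun q => (Φ q).1)
        ((ContinuousLinearMap.fst ℝ _ _).comp L) (p₀, x₀) :=
      (hasFDerivAt_fst (𝕜 := ℝ)).comp (p₀, x₀) hstrict.hasFDerivAt
    have h4 := h3.unique (hasFDerivAt_fst (𝕜 := ℝ))
    exact DFunLike.congr_fun h4 w
  have hsurj : (L : (Fin k → ℝ) × (Fin n → ℝ) →ₗ[ℝ] (Fin k → ℝ) × (Fin n → ℝ)).range = ⊤ := by
    rw [LinearMap.range_eq_top]
    rintro ⟨u, v⟩
    obtain ⟨w, hw⟩ : ∃ w, J.mulVec w = v - (L (u, 0)).2 := by
      refine ⟨J⁻¹.mulVec (v - (L (u, 0)).2), ?_⟩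
      rw [Matrix.mulVec_mulVec, Matrix.mul_nonsing_inv _ (isUnit_iff_ne_zero.mpr hJdet),
        Matrix.one_mulVec]
    refine ⟨(u, w), ?_⟩
    have : ((u, w) : (Fin k → ℝ) × (Fin n → ℝ)) = (u, 0) + (0, w) := by simp
    rw [this, map_add]
    change L (u, 0) + L (0, w) = (u, v)
    rw [hLin, hw]
    refine Prod.ext ?_ ?_
    · simp [hfst]
    · simp
  have hmap := hstrict.map_nhds_eq_of_surj hsurj
  have h0 : Φ (p₀, x₀) = (p₀, 0) := by
    refine Prod.ext rfl ?_
    funext i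
    simp only [hΦ, Pi.zero_apply]
    rw [sub_eq_zero]
    exact hsol i
  have h1 : Φ '' U ∈ 𝓝 (p₀, (0 : Fin n → ℝ)) := by
    rw [← h0, ← hmap]
    exact Filter.image_mem_map hU
  have h2 : Filter.Tendsto (fun p : Fin k → ℝ => (p, (0 : Fin n → ℝ))) (𝓝 p₀)
      (𝓝 (p₀, (0 : Fin n → ℝ))) :=
    (continuous_id.prodMk continuous_const).tendsto p₀
  filter_upwards [h2 h1] with p hp
  obtain ⟨q, hq, hqe⟩ := hp
  have e1 : q.1 = p := congrArg Prod.fst hqe
  have e2 : (fun i => q.2 i ^ m - eval q.2 (Ev q.1 i)) = 0 := congrArg Prod.snd hqe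
  refine ⟨q.2, ?_, fun i => ?_⟩
  · rw [← e1]; exact hq
  · have := congrFun e2 i
    rw [e1] at this
    exact sub_eq_zero.mp this

end Crest.Agent.R316.Rl
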