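import Mathlib

/-!
# R316 / Real / Region
The parameter region `Reg B c = {p | B ≤ p_0, (p_0 ⋯ p_i)^c ≤ p_{i+1}}` is preconnected and an
integer polynomial of bounded degree and coefficients does not vanish on it.
-/

set_option autoImplicit false

namespace Crest.Agent.R316.Rl

open MvPolynomial

/-- the parameter region: every parameter is `≥ B` and dominates the `c`-th power of the product of
the previous ones. -/
def Reg (k : ℕ) (B : ℝ) (c : ℕ) : Set (Fin k → ℝ) :=
  {p | ∀ i, B ≤ p i ∧ (∏ j ∈ Finset.univ.filter (fun j => j < i), p j) ^ c ≤ p i}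

theorem Reg_mono {k : ℕ} {B B' : ℝ} {c c' : ℕ} (hB : B ≤ B') (hB1 : 1 ≤ B) (hc : c ≤ c') :
    Reg k B' c' ⊆ Reg k B c := by
  intro p hp i
  refine ⟨hB.trans (hp i).1, le_trans ?_ (hp i).2⟩
  refine pow_le_pow_right₀ ?_ hc
  have : ∀ j ∈ Finset.univ.filter (fun j => j < i), (1:ℝ) ≤ p j :=
    fun j _ => (hB1.trans hB).trans (hp j).1
  exact Finset.one_le_prod this

theorem Reg_eq_image {k : ℕ} {B : ℝ} (hB : 0 < B) (c : ℕ) :
    Reg k B c = (fun u : Fin k → ℝ => fun i => Real.exp (u i)) ''
      {u | ∀ i, Real.log B ≤ u i ∧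
        (c : ℝ) * (∑ j ∈ Finset.univ.filter (fun j => j < i), u j) ≤ u i} := by
  ext p
  constructor
  · intro hp
    have hpos : ∀ i, 0 < p i := fun i => hB.trans_le (hp i).1
    refine ⟨fun i => Real.log (p i), fun i => ⟨Real.log_le_log hB (hp i).1, ?_⟩, ?_⟩
    · rw [← Real.log_prod (fun j _ => (hpos j).ne'), ← Real.log_pow]
      exact Real.log_le_log (pow_pos (Finset.prod_pos fun j _ => hpos j) _) (hp i).2
    · funext i
      exact Real.exp_log (hpos i)
  · rintro ⟨u, hu, rfl⟩ i
    refine ⟨?_, ?_⟩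
    · have := Real.exp_le_exp.mpr (hu i).1
      rwa [Real.exp_log hB] at this
    · have := Real.exp_le_exp.mpr (hu i).2
      rwa [Real.exp_nat_mul, Real.exp_sum] at this

theorem Reg_isPreconnected {k : ℕ} {B : ℝ} (hB : 0 < B) (c : ℕ) :
    IsPreconnected (Reg k B c) := by
  rw [Reg_eq_image hB c]
  refine IsPreconnected.image ?_ _ ?_
  · refine Convex.isPreconnected ?_
    intro u hu v hv a b ha hb hab i
    have h1 := hu i
    have h2 := hv i
    constructor
    · simp only [Pi.add_apply, Pi.smul_apply, smul_eq_mul]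
      calc Real.log B = a * Real.log B + b * Real.log B := by rw [← add_mul, hab, one_mul]
        _ ≤ a * u i + b * v i := by
          gcongr
          · exact h1.1
          · exact h2.1
    · simp only [Pi.add_apply, Pi.smul_apply, smul_eq_mul, Finset.sum_add_distrib,
        ← Finset.mul_sum]
      calc (c : ℝ) * (a * ∑ j ∈ Finset.univ.filter (fun j => j < i), u j
            + b * ∑ j ∈ Finset.univ.filter (fun j => j < i), v j)
          = a * (c * ∑ j ∈ Finset.univ.filter (fun j => j < i), u j)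
            + b * (c * ∑ j ∈ Finset.univ.filter (fun j => j < i), v j) := by ring
        _ ≤ a * u i + b * v i := by
          gcongr
          · exact h1.2
          · exact h2.2
  · exact (continuous_pi fun i => Real.continuous_exp.comp (continuous_apply i)).continuousOn

theorem Reg_compare {k : ℕ} {B : ℝ} {c E : ℕ} (hB : 1 ≤ B) (hc : E + 1 ≤ c) {p : Fin k → ℝ}
    (hp : p ∈ Reg k B c) {s t : Fin k → ℕ} (hs : ∀ j, s j ≤ E) (i : Fin k) (hi : s i < t i)
    (hgt : ∀ j, i < j → s j = t j) : B * ∏ j, p j ^ s j ≤ ∏ j, p j ^ t j := by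
  classical
  have h1 : ∀ j, 1 ≤ p j := fun j => hB.trans (hp j).1
  set P : ℝ := ∏ j ∈ Finset.univ.filter (fun j => j < i), p j with hP
  have hP1 : 1 ≤ P := Finset.one_le_prod fun j _ => h1 j
  have hkey : B * P ^ E ≤ p i := by
    by_cases hne : (Finset.univ.filter (fun j => j < i)).Nonempty
    · obtain ⟨j0, hj0⟩ := hne
      have hBP : B ≤ P := by
        rw [hP, ← Finset.mul_prod_erase _ _ hj0]
        calc B = B * 1 := (mul_one B).symm
          _ ≤ p j0 * ∏ x ∈ (Finset.univ.filter (fun j => j < i)).erase j0, p x :=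
            mul_le_mul (hp j0).1 (Finset.one_le_prod fun j _ => h1 j) zero_le_one
              (zero_le_one.trans (h1 j0))
      calc B * P ^ E ≤ P * P ^ E := by gcongr
        _ = P ^ (E + 1) := by ring
        _ ≤ P ^ c := pow_le_pow_right₀ hP1 hc
        _ ≤ p i := (hp i).2
    · rw [Finset.not_nonempty_iff_eq_empty] at hne
      rw [hP, hne]
      simpa using (hp i).1
  have hsplit : ∀ f : Fin k → ℝ, ∏ j, f j =
      (∏ j ∈ Finset.univ.filter (fun j => j < i), f j) * f i *
        ∏ j ∈ Finset.univ.filter (fun j => i < j), f j := by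
    intro f
    rw [← Finset.prod_filter_mul_prod_filter_not Finset.univ (fun j => j < i) f, mul_assoc]
    congr 1
    have : (Finset.univ.filter (fun j => ¬ j < i)) =
        insert i (Finset.univ.filter (fun j => i < j)) := by
      ext j
      simp only [Finset.mem_filter, Finset.mem_univ, true_and, Finset.mem_insert, not_lt]
      constructor
      · intro h
        rcases h.eq_or_lt with h | h
        · exact Or.inl h.symm
        · exact Or.inr h
      · rintro (h | h)
        · exact h.symm.le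
        · exact h.le
    rw [this, Finset.prod_insert (by simp)]
  rw [hsplit, hsplit (fun j => p j ^ t j)]
  have hT : ∏ j ∈ Finset.univ.filter (fun j => i < j), p j ^ s j =
      ∏ j ∈ Finset.univ.filter (fun j => i < j), p j ^ t j :=
    Finset.prod_congr rfl fun j hj => by
      rw [hgt j (by simpa using hj)]
  rw [hT]
  have hT0 : 0 ≤ ∏ j ∈ Finset.univ.filter (fun j => i < j), p j ^ t j :=
    Finset.prod_nonneg fun j _ => pow_nonneg (zero_le_one.trans (h1 j)) _
  rw [← mul_assoc]
  refine mul_le_mul_of_nonneg_right ?_ hT0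
  have ha : ∏ j ∈ Finset.univ.filter (fun j => j < i), p j ^ s j ≤ P ^ E := by
    rw [hP, ← Finset.prod_pow]
    exact Finset.prod_le_prod (fun j _ => pow_nonneg (zero_le_one.trans (h1 j)) _)
      fun j _ => pow_le_pow_right₀ (h1 j) (hs j)
  have hb : (1:ℝ) ≤ ∏ j ∈ Finset.univ.filter (fun j => j < i), p j ^ t j :=
    Finset.one_le_prod fun j _ => one_le_pow₀ (h1 j)
  have hpi : 0 ≤ p i ^ s i := pow_nonneg (zero_le_one.trans (h1 i)) _
  calc B * ((∏ j ∈ Finset.univ.filter (fun j => j < i), p j ^ s j) * p i ^ s i)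
      ≤ B * (P ^ E * p i ^ s i) := by gcongr
    _ = (B * P ^ E) * p i ^ s i := by ring
    _ ≤ p i * p i ^ s i := by gcongr
    _ = p i ^ (s i + 1) := by ring
    _ ≤ p i ^ t i := pow_le_pow_right₀ (h1 i) hi
    _ = 1 * p i ^ t i := (one_mul _).symm
    _ ≤ _ := by
      refine mul_le_mul_of_nonneg_right hb (pow_nonneg (zero_le_one.trans (h1 i)) _)

/-- an integer polynomial of degree `≤ E` and `ℓ¹` norm `< B` does not vanish on `Reg k B c` -/
theorem aeval_ne_zero_of_mem_Reg {k : ℕ} {D : MvPolynomial (Fin k) ℤ} (hD : D ≠ 0) {E c : ℕ}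
    (hE : D.totalDegree ≤ E) (hc : E + 1 ≤ c) {B : ℝ} (hB : 1 < B)
    (hH : ∑ s ∈ D.support, |((D.coeff s : ℤ) : ℝ)| < B) {p : Fin k → ℝ} (hp : p ∈ Reg k B c) :
    aeval p D ≠ 0 := by
  classical
  have hne : D.support.Nonempty := by
    rwa [Finset.nonempty_iff_ne_empty, Ne, MvPolynomial.support_eq_empty]
  have h1 : ∀ j, 1 ≤ p j := fun j => hB.le.trans (hp j).1
  set mon : (Fin k →₀ ℕ) → ℝ := fun s => ∏ j, p j ^ s j with hmon
  have hmonpos : ∀ s, 0 < mon s := fun s => Finset.prod_pos fun j _ =>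
    pow_pos (zero_lt_one.trans_le (h1 j)) _
  obtain ⟨t, ht, hmax⟩ := Finset.exists_max_image D.support mon hne
  have hdeg : ∀ s ∈ D.support, ∀ j, s j ≤ E := by
    intro s hs j
    refine le_trans ?_ (le_trans (MvPolynomial.le_totalDegree hs) hE)
    rw [Finsupp.sum]
    by_cases hj : j ∈ s.support
    · exact Finset.single_le_sum (f := fun a => s a) (fun _ _ => Nat.zero_le _) hj
    · rw [Finsupp.notMem_support_iff.mp hj]; exact Nat.zero_le _
  have hcomp : ∀ s ∈ D.support, s ≠ t → B * mon s ≤ mon t := by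
    intro s hs hst
    -- largest index of difference
    have hd : (Finset.univ.filter (fun j => s j ≠ t j)).Nonempty := by
      by_contra h
      rw [Finset.not_nonempty_iff_eq_empty, Finset.filter_eq_empty_iff] at h
      apply hst
      ext j
      have := h (Finset.mem_univ j)
      simpa using this
    obtain ⟨i, hi, hil⟩ := Finset.exists_max_image _ (fun j : Fin k => j) hd
    have hgt : ∀ j, i < j → s j = t j := by
      intro j hj
      by_contra h
      exact absurd (hil j (by simp [h])) (not_le.mpr hj)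
    have hi' : s i ≠ t i := by simpa using hi
    rcases lt_or_gt_of_ne hi' with hlt | hlt
    · exact Reg_compare hB.le hc hp (hdeg s hs) i hlt hgt
    · exfalso
      have := Reg_compare hB.le hc hp (hdeg t ht) i hlt (fun j hj => (hgt j hj).symm)
      have h2 : mon s ≤ mon t := hmax s hs
      have h3 : mon t < B * mon t := by
        nlinarith [hmonpos t]
      exact absurd (this.trans h2) (not_le.mpr h3)
  have hsum : aeval p D = ∑ s ∈ D.support, ((D.coeff s : ℤ) : ℝ) * mon s := by
    rw [MvPolynomial.aeval_def, MvPolynomial.eval₂_eq']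
    rfl
  rw [hsum, ← Finset.add_sum_erase _ _ ht]
  intro h0
  have hb1 : |∑ s ∈ D.support.erase t, ((D.coeff s : ℤ) : ℝ) * mon s| ≤
      (∑ s ∈ D.support.erase t, |((D.coeff s : ℤ) : ℝ)|) * (mon t / B) := by
    rw [Finset.sum_mul]
    refine (Finset.abs_sum_le_sum_abs _ _).trans (Finset.sum_le_sum fun s hs => ?_)
    rw [abs_mul, abs_of_pos (hmonpos s)]
    refine mul_le_mul_of_nonneg_left ?_ (abs_nonneg _)
    rw [le_div_iff₀ (zero_lt_one.trans hB)]
    have := hcomp s (Finset.mem_of_mem_erase hs) (Finset.ne_of_mem_erase hs)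
    linarith
  have hb2 : mon t ≤ |((D.coeff t : ℤ) : ℝ) * mon t| := by
    rw [abs_mul, abs_of_pos (hmonpos t)]
    have : (1:ℝ) ≤ |((D.coeff t : ℤ) : ℝ)| := by
      rw [← Int.cast_abs]
      exact_mod_cast Int.one_le_abs (MvPolynomial.mem_support_iff.mp ht)
    nlinarith [hmonpos t]
  have hb3 : |((D.coeff t : ℤ) : ℝ) * mon t| =
      |∑ s ∈ D.support.erase t, ((D.coeff s : ℤ) : ℝ) * mon s| := by
    rw [← abs_neg]
    congr 1
    linarith
  have hb4 : (∑ s ∈ D.support.erase t, |((D.coeff s : ℤ) : ℝ)|) < B :=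
    lt_of_le_of_lt (Finset.sum_le_sum_of_subset_of_nonneg (Finset.erase_subset _ _)
      fun _ _ _ => abs_nonneg _) hH
  have hb5 : (∑ s ∈ D.support.erase t, |((D.coeff s : ℤ) : ℝ)|) * (mon t / B) < mon t := by
    rw [mul_div_assoc', div_lt_iff₀ (zero_lt_one.trans hB), mul_comm (mon t) B]
    exact mul_lt_mul_of_pos_right hb4 (hmonpos t)
  linarith

end Crest.Agent.R316.Rl
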